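import Vale.Agent.P174.Tower.Defs
import Vale.Agent.P174.Tower.Unipotent

/-!
P174: Howie's conjecture passes to a group from its finitely generated subgroups without a surjection
onto the integers; so the class of groups satisfying it contains the abelian groups, is residually
closed and is closed under extensions with locally indicable quotient.
-/

namespace Vale.Agent.Results.P174.ExtensionClosure

open _root_.Vale.Agent.P174.Ext _root_.Vale.Agent.P174.Tower

universe u

theorem result :
    (∀ (G : Type u) [Group G],
      (∀ K : Subgroup G, K.FG → ZFree K → EquationsSolvable K) → EquationsSolvable G) ∧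
    ((∀ (G : Type u) [Group G], Group.FG G → ZFree G → EquationsSolvable G) →
      ∀ (G : Type u) [Group G], EquationsSolvable G) ∧
    (∀ (G : Type u) [Group G] (N : Subgroup G) [N.Normal],
      EquationsSolvable N → LocallyIndicable (G ⧸ N) → EquationsSolvable G) ∧
    (∀ (G : Type u) [Group G] (A : Subgroup G) [A.Normal], (∀ a b : A, a * b = b * a) →
      LocallyIndicable (G ⧸ A) → EquationsSolvable G) ∧
    (∀ (G : Type u) [Group G],
      (∀ g : G, g ≠ 1 → ∃ (K : Type u) (_ : Group K) (φ : G →* K),
        EquationsSolvable K ∧ φ g ≠ 1) → EquationsSolvable G) ∧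
    ∀ (Q : Type u) [Group Q], ResUnipotent Q → LocallyIndicable Q :=
  ⟨equationsSolvable_tower,
    fun h G _ => equationsSolvable_tower G fun K hK hf => h K ((Group.fg_iff_subgroup_fg K).mpr hK) hf,
    equationsSolvable_li_extension,
    fun G _ A _ hA hQ => equationsSolvable_li_extension G A (equationsSolvable_comm A hA) hQ,
    equationsSolvable_residual,
    fun _ _ hQ L hL hf => eq_bot_of_resUnipotent hQ L hL hf⟩

end Vale.Agent.Results.P174.ExtensionClosure
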