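import Vale.Agent.P174.Solve

/-!
P174: Howie's conjecture for quadratic systems and for systems of short equations, over every group.
-/

namespace Vale.Agent.Results.P174.QuadraticSystems

open _root_.Vale.Agent.P174

universe u

/-- The element of the free product of `G` and the free group on `n` unknowns given by a word. -/
def element {G : Type u} [Group G] {n : ℕ} (w : List (G ⊕ (Fin n × Bool))) :
    Monoid.Coprod G (FreeGroup (Fin n)) :=
  eval Monoid.Coprod.inl (fun x => Monoid.Coprod.inr (FreeGroup.of x)) w

/-- The exponent-sum homomorphism to the free abelian group on the unknowns. -/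
def exponents {G : Type u} [Group G] {n : ℕ} :
    Monoid.Coprod G (FreeGroup (Fin n)) →* Multiplicative (Fin n → ℤ) :=
  Monoid.Coprod.lift 1 (FreeGroup.lift fun j => Multiplicative.ofAdd (Pi.single j (1 : ℤ)))

lemma exponents_element {G : Type u} [Group G] {n : ℕ} (w : List (G ⊕ (Fin n × Bool))) (x : Fin n) :
    Multiplicative.toAdd (exponents (element w)) x = expo x w := by
  induction w with
  | nil => simp [element, eval, expo]
  | cons l w ih =>
    rw [element, eval_cons, map_mul, toAdd_mul, Pi.add_apply]
    rw [element] at ih
    rw [ih]
    rcases l with g | ⟨y, b⟩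
    · simp [exponents, val, expo]
    · rw [expo_cons]
      cases b <;> by_cases hy : y = x <;> simp [exponents, val, hy, Pi.single_apply, Ne.symm]

/-- Every nonsingular system over every group in which every unknown occurs at most twice, or every
equation has at most two occurrences of unknowns, is solvable over the group. -/
theorem result : ∀ (G : Type u) [Group G] (m n : ℕ) (ws : Fin m → List (G ⊕ (Fin n × Bool))),
    ((∀ x, ∑ i, occ x (ws i) ≤ 2) ∨ ∀ i, nvar (ws i) ≤ 2) →
    LinearIndependent ℚ
      (fun (i : Fin m) (x : Fin n) =>
        ((Multiplicative.toAdd (exponents (element (ws i))) x : ℤ) : ℚ)) →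
    ∃ (H : Type u) (_ : Group H) (ι : G →* H) (h : Fin n → H), Function.Injective ι ∧
      ∀ i, Monoid.Coprod.lift ι (FreeGroup.lift h) (element (ws i)) = 1 := by
  intro G _ m n ws hsm hli
  have hind : Indep Finset.univ ws := by
    intro c hc i _
    refine (Fintype.linearIndependent_iff.mp hli) c ?_ i
    funext x
    simpa [exponents_element] using hc x
  obtain ⟨H, _, φ, f, hφ, hf⟩ := solvable m G Finset.univ ws (by simp)
    (hsm.imp id fun h i _ => h i) hind
  refine ⟨H, inferInstance, φ, f, hφ, fun i => ?_⟩
  rw [element, map_eval]
  refine Eq.trans ?_ (hf i (Finset.mem_univ i))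
  congr 1
  funext x; simp

end Vale.Agent.Results.P174.QuadraticSystems
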